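import Mathlib
import Vale.Agent.P211.Bdl.S3
import Vale.Agent.P231.Bd3.B5
import Vale.Agent.P255.CoordM

/-! P211, route T, block B: the bridge between the exponential chart and the formal calculus. -/

set_option maxSynthPendingDepth 3
set_option linter.unusedSectionVars false
set_option linter.unusedVariables false

namespace Vale.Agent.P211.H775

open scoped Manifold ContDiff Topology
open Bundle Filter VectorField Set
open Vale.Agent.P234 Vale.Agent.P231

noncomputable section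

variable {E : Type*} [NormedAddCommGroup E] [NormedSpace ℝ E] [FiniteDimensional ℝ E]
  {M : Type*} [MetricSpace M] [ChartedSpace E M] [IsManifold 𝓘(ℝ, E) ∞ M]
  [RiemannianBundle (fun x : M => TangentSpace 𝓘(ℝ, E) x)]
  [IsContMDiffRiemannianBundle 𝓘(ℝ, E) ∞ E (fun x : M => TangentSpace 𝓘(ℝ, E) x)]

variable {e : ∀ x : M, TangentSpace 𝓘(ℝ, E) x → M}

/-- the tangent injectivity domain in orthonormal coordinates -/
def dom (e : ∀ x : M, TangentSpace 𝓘(ℝ, E) x → M) (z : M) : Set (Eu E) :=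
  {ξ | (fr z ξ : E) ∈ injDomain e z}

/-- the pulled back metric in exponential coordinates -/
def pb (e : ∀ x : M, TangentSpace 𝓘(ℝ, E) x → M) (z : M) (ξ : Eu E) :
    Eu E →L[ℝ] Eu E →L[ℝ] ℝ :=
  LinearMap.toContinuousLinearMap
    ((LinearMap.toContinuousLinearMap : (Eu E →ₗ[ℝ] ℝ) ≃ₗ[ℝ] (Eu E →L[ℝ] ℝ)).toLinearMap ∘ₗ
      LinearMap.mk₂ ℝ (fun a b => GG e z a b ξ)
        (fun a a' b => by rw [GG_add])
        (fun c a b => by rw [GG_smul]; rfl)
        (fun a b b' => by rw [GG_comm z a (b + b'), GG_add, GG_comm z b a, GG_comm z b' a])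
        (fun c a b => by rw [GG_comm z a (c • b), GG_smul, GG_comm z b a]; rfl))

theorem pb_apply (z : M) (ξ a b : Eu E) : pb e z ξ a b = GG e z a b ξ := rfl

theorem pb_eq (z : M) (ξ a b : Eu E) :
    pb e z ξ a b = Vale.Agent.P231.ip (ef e z ξ) (dE e z (fr z ξ) (fr z a)) (dE e z (fr z ξ) (fr z b)) := rfl

theorem contDiff_pb (he : IsExp e) (z : M) : ContDiff ℝ ∞ (pb e z) := by
  rw [contDiff_clm_apply_iff]
  intro a
  rw [contDiff_clm_apply_iff]
  intro b
  exact contDiff_GG he z a b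

/-! ### local coordinate fields -/

/-- a local section -/
theorem section_smooth (F : Facts e) (z : M) (a : E) {y₀ : M} (hy : SmoothAt E z y₀) :
    ContMDiffAt 𝓘(ℝ, E) 𝓘(ℝ, E).tangent ∞
      (fun y : M => tb y (dE e z (logMap e z y) a)) y₀ := by
  have h1 := contMDiffAt_logMap F.isExp hy
  have h2 := (taylor_contMDiff_dE F.isExp z (a : TangentSpace 𝓘(ℝ, E) z)).contMDiffAt
    (x := logMap e z y₀)
  have h3 := h2.comp y₀ h1
  refine h3.congr_of_eventuallyEq ?_
  filter_upwards [eventually_logMap F.isExp F.hopfRinow hy] with y hy'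
  exact tb_congr hy'.2.symm rfl

/-- the fields `C a` restrict to the coordinate fields of the exponential chart near `ξ` -/
def IsCoord (e : ∀ x : M, TangentSpace 𝓘(ℝ, E) x → M) (z : M) (C : Eu E → VF E M) (ξ : Eu E) :
    Prop :=
  ∀ᶠ η in 𝓝 ξ, ∀ a : Eu E, (C a (ef e z η) : E) = dE e z (fr z η) (fr z a)

theorem exists_coord (F : Facts e) {z : M} {ξ : Eu E} (hξ : ξ ∈ dom e z) :
    ∃ C : Eu E → VF E M, IsCoord e z C ξ := by
  have hs : SmoothAt E z (e z (fr z ξ : E)) := F.smooth_cost z (fr z ξ : E) hξ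
  have hm := injDomain_subset_segMin F.isExp z hξ
  set y₀ : M := e z (fr z ξ : E) with hy₀
  have h1 : ∀ᶠ y in 𝓝 y₀, SmoothAt E z y := by
    have := hs.eventually
    rw [nhds_prod_eq] at this
    exact this.curry.self_of_nhds
  obtain ⟨f, -, hf⟩ := (SmoothBumpFunction.nhds_basis_tsupport (I := 𝓘(ℝ, E)) y₀).mem_iff.1 h1
  have key : ∀ a : E, ContMDiff 𝓘(ℝ, E) 𝓘(ℝ, E).tangent ∞
      (fun y : M => tb y (f y • dE e z (logMap e z y) a)) := by
    intro a y
    by_cases hy : y ∈ tsupport f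
    · exact (f.contMDiff y).smul_section (section_smooth F z a (hf hy))
    · refine (contMDiff_zeroSection ℝ (fun z : M => TangentSpace 𝓘(ℝ, E) z)
        y).congr_of_eventuallyEq ?_
      filter_upwards [(isClosed_tsupport f).isOpen_compl.mem_nhds hy] with y' hy'
      have h2 : f y' = 0 := image_eq_zero_of_notMem_tsupport hy'
      rw [h2, zero_smul]
      rfl
  refine ⟨fun a => ⟨fun y => f y • dE e z (logMap e z y) (fr z a), key _⟩, ?_⟩
  have h2 := eventually_logMap_exp F.isExp F.hopfRinow hm hs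
  have hc : ContinuousAt (fun η : Eu E => (fr z η : E)) ξ := (fr z).continuous.continuousAt
  have h3 : ∀ᶠ η : Eu E in 𝓝 ξ, logMap e z (e z (fr z η : E)) = (fr z η : E) :=
    hc.eventually h2
  have h4 : ∀ᶠ η : Eu E in 𝓝 ξ, f (e z (fr z η : E)) = 1 := by
    have h5 : ContinuousAt (fun η : Eu E => e z (fr z η : E)) ξ :=
      (area_continuous_ef F.isExp z).continuousAt
    exact h5.eventually (f.eventuallyEq_one)
  filter_upwards [h3, h4] with η h3 h4 a
  change f (ef e z η) • dE e z (logMap e z (ef e z η)) (fr z a) = _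
  have h3' : logMap e z (ef e z η) = (fr z η : E) := h3
  have h4' : f (ef e z η) = 1 := h4
  rw [h3', h4', one_smul]

theorem fun_smooth (he : IsExp e) (z : M) (f : SF E M) :
    ContDiff ℝ ∞ (fun η : Eu E => f (ef e z η)) := by
  rw [contDiff_iff_contDiffAt]
  intro ξ
  exact (area_chain (E := E) (areaA (E := E) z) (e z) f (ContinuousLinearMap.id ℝ ℝ) (ξ := ξ)
    (y := ef e z ξ) rfl (contMDiff_exp_fiber he z).contMDiffAt f.contMDiff.contMDiffAt).1

/-- derivative of a function along a field in the exponential chart -/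
theorem field_deriv (he : IsExp e) (z : M) (X : VF E M) (f : SF E M) {ξ a : Eu E}
    (hX : (X (ef e z ξ) : E) = dE e z (fr z ξ) (fr z a)) :
    DVF X f (ef e z ξ) = fderiv ℝ (fun η : Eu E => f (ef e z η)) ξ a := by
  have h := (area_chain (E := E) (areaA (E := E) z) (e z) f (ContinuousLinearMap.id ℝ ℝ) (ξ := ξ)
    (y := ef e z ξ) rfl (contMDiff_exp_fiber he z).contMDiffAt f.contMDiff.contMDiffAt).2 a
  rw [DVF_apply]
  have h2 : mvfderiv 𝓘(ℝ, E) f (ef e z ξ) (X (ef e z ξ)) =
      mfderiv 𝓘(ℝ, E) 𝓘(ℝ, ℝ) f (ef e z ξ) (dE e z (fr z ξ) (fr z a) : E) := by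
    rw [← hX]; rfl
  rw [h2]
  exact h.symm

/-- second derivatives along coordinate fields -/
theorem field_deriv2 (he : IsExp e) (z : M) {C : Eu E → VF E M} {ξ : Eu E}
    (hC : IsCoord e z C ξ) (f : SF E M) (a b : Eu E) :
    DVF (C a) (DVF (C b) f) (ef e z ξ) =
      fderiv ℝ (fderiv ℝ (fun η : Eu E => f (ef e z η))) ξ a b := by
  rw [field_deriv he z (C a) (DVF (C b) f) (hC.self_of_nhds a)]
  have hev : (fun η : Eu E => DVF (C b) f (ef e z η)) =ᶠ[𝓝 ξ]
      fun η => fderiv ℝ (fun η : Eu E => f (ef e z η)) η b := by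
    filter_upwards [hC] with η hη
    exact field_deriv he z (C b) f (hη b)
  rw [hev.fderiv_eq]
  have hd : DifferentiableAt ℝ (fderiv ℝ (fun η : Eu E => f (ef e z η))) ξ :=
    (((fun_smooth he z f).fderiv_right (m := 1) (by norm_cast)).differentiable (by simp)) ξ
  have h2 := hd.hasFDerivAt.clm_apply (hasFDerivAt_const b ξ)
  rw [h2.fderiv]
  simp

variable {cov : CovariantDerivative 𝓘(ℝ, E) E (TangentSpace 𝓘(ℝ, E) : M → Type _)}

/-- coordinate fields commute -/
theorem field_comm (hcov : IsLC cov) (he : IsExp e) (z : M) {C : Eu E → VF E M} {ξ : Eu E}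
    (hC : IsCoord e z C ξ) (a b : Eu E) :
    nabVF cov hcov.smooth (C a) (C b) (ef e z ξ) =
      nabVF cov hcov.smooth (C b) (C a) (ef e z ξ) := by
  have hsymm : ∀ f : SF E M, DVF (C a) (DVF (C b) f) (ef e z ξ) =
      DVF (C b) (DVF (C a) f) (ef e z ξ) := by
    intro f
    rw [field_deriv2 he z hC, field_deriv2 he z hC]
    have h3 : IsSymmSndFDerivAt ℝ (fun η : Eu E => f (ef e z η)) ξ :=
      (fun_smooth he z f).contDiffAt.isSymmSndFDerivAt (by
        rw [minSmoothness_of_isRCLikeNormedField]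
        exact WithTop.coe_le_coe.mpr (le_top : (2 : ℕ∞) ≤ ⊤))
    exact h3.eq _ _
  obtain ⟨L, f, -, hf⟩ := S4.g10_fun (E := E) (ef e z ξ)
    (nabVF cov hcov.smooth (C a) (C b) - nabVF cov hcov.smooth (C b) (C a))
  have h4 := congrArg (fun h : SF E M => h (ef e z ξ)) ((lcOf hcov).comm (C a) (C b) f)
  have h5 : DVF (nabVF cov hcov.smooth (C a) (C b) - nabVF cov hcov.smooth (C b) (C a)) f
      (ef e z ξ) = DVF (C a) (DVF (C b) f) (ef e z ξ) - DVF (C b) (DVF (C a) f) (ef e z ξ) := h4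
  rw [hsymm f, sub_self, hf, gVF_self_eq_zero] at h5
  exact sub_eq_zero.mp h5

/-! ### the metric coefficients -/

theorem isOpen_dom (F : Facts e) (z : M) : IsOpen (dom e z) := by
  have h1 : Continuous (fun η : Eu E => (fr z η : E)) := (fr z).continuous
  exact (F.isOpen_injDomain z).preimage h1

theorem dE_inj (F : Facts e) {z : M} {ξ : Eu E} (hξ : ξ ∈ dom e z) {a : Eu E}
    (ha : dE e z (fr z ξ) (fr z a) = 0) : a = 0 := by
  have h1 : (fr z a : E) = 0 := mfderiv_exp_injective F hξ (fr z a : E) ha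
  have h2 : fr z a = fr z 0 := by rw [h1, map_zero]
  exact (fr z).injective h2

/-- the differential of the exponential chart is onto -/
theorem dE_surj (F : Facts e) {z : M} {ξ : Eu E} (hξ : ξ ∈ dom e z) (w : E) :
    ∃ a : Eu E, dE e z (fr z ξ) (fr z a) = w := by
  let L : Eu E →ₗ[ℝ] E := (dEl e z (fr z ξ)).comp ((fr z : Eu E ≃L[ℝ] E) : Eu E →ₗ[ℝ] E)
  have hL : Function.Injective L := by
    rw [injective_iff_map_eq_zero]
    intro a ha
    exact dE_inj F hξ ha
  have hd : Module.finrank ℝ (Eu E) = Module.finrank ℝ E := by simp [Eu]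
  have hs : Function.Surjective L := (LinearMap.injective_iff_surjective_of_finrank_eq_finrank hd).1 hL
  exact hs w

/-- (B0) -/
theorem isMetricOn (F : Facts e) (z : M) : P255.IsMetricOn (pb e z) (dom e z) where
  isOpen := isOpen_dom F z
  smooth := (contDiff_pb F.isExp z).contDiffOn
  symm := by
    intro u _ v w
    rw [pb_apply, pb_apply, GG_comm]
  pos := by
    intro u hu v hv
    rw [pb_eq, ip_self]
    have h1 : dE e z (fr z u) (fr z v) ≠ 0 := fun h => hv (dE_inj F hu h)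
    have h2 : nm (ef e z u) (dE e z (fr z u) (fr z v)) ≠ 0 := by
      intro h
      exact h1 (norm_eq_zero (E := TangentSpace 𝓘(ℝ, E) (ef e z u)).1 h)
    positivity

theorem gVF_coord {z : M} {ξ a b : Eu E} {X Y : VF E M}
    (hX : (X (ef e z ξ) : E) = dE e z (fr z ξ) (fr z a))
    (hY : (Y (ef e z ξ) : E) = dE e z (fr z ξ) (fr z b)) :
    gVF X Y (ef e z ξ) = pb e z ξ a b := by
  rw [pb_eq, ← hX, ← hY]
  rfl

/-- the Levi-Civita connection in the exponential chart -/
theorem nab_coord (hcov : IsLC cov) (F : Facts e) {z : M} {C : Eu E → VF E M} {ξ : Eu E}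
    (hξ : ξ ∈ dom e z) (hC : IsCoord e z C ξ) (a b : Eu E) :
    (nabVF cov hcov.smooth (C a) (C b) (ef e z ξ) : E) =
      dE e z (fr z ξ) (fr z (P255.chris (pb e z) ξ a b)) := by
  have he := F.isExp
  have hG := isMetricOn F z
  have hCξ := hC.self_of_nhds
  -- the derivative of the coefficients
  have hD : ∀ a b c : Eu E, fderiv ℝ (pb e z) ξ a b c =
      gVF (nabVF cov hcov.smooth (C a) (C b)) (C c) (ef e z ξ) +
      gVF (nabVF cov hcov.smooth (C a) (C c)) (C b) (ef e z ξ) := by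
    intro a b c
    have h1 : DVF (C a) (gVF (C b) (C c)) (ef e z ξ) =
        fderiv ℝ (fun η : Eu E => gVF (C b) (C c) (ef e z η)) ξ a :=
      field_deriv he z (C a) _ (hCξ a)
    have h2 : (fun η : Eu E => gVF (C b) (C c) (ef e z η)) =ᶠ[𝓝 ξ] fun η => pb e z η b c := by
      filter_upwards [hC] with η hη
      exact gVF_coord (hη b) (hη c)
    rw [h2.fderiv_eq] at h1
    have h3 : HasFDerivAt (fun η => pb e z η b c) (((fderiv ℝ (pb e z) ξ).flip b).flip c) ξ := by
      have h4 := ((hG.differentiableAt hξ).hasFDerivAt.clm_apply (hasFDerivAt_const b ξ)).clm_apply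
        (hasFDerivAt_const c ξ)
      refine h4.congr_fderiv ?_
      ext v; simp
    rw [h3.fderiv] at h1
    have h5 : DVF (C a) (gVF (C b) (C c)) (ef e z ξ) =
        gVF (nabVF cov hcov.smooth (C a) (C b)) (C c) (ef e z ξ) +
        gVF (C b) (nabVF cov hcov.smooth (C a) (C c)) (ef e z ξ) :=
      hcov.metric (C a) (C b) (C c) (ef e z ξ)
    rw [h1] at h5
    have h6 : gVF (C b) (nabVF cov hcov.smooth (C a) (C c)) (ef e z ξ) =
        gVF (nabVF cov hcov.smooth (C a) (C c)) (C b) (ef e z ξ) := by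
      rw [gVF_apply, gVF_apply]
      exact real_inner_comm (F := TangentSpace 𝓘(ℝ, E) (ef e z ξ)) _ _
    rw [h6] at h5
    simpa using h5
  obtain ⟨n, hn⟩ := dE_surj F hξ (nabVF cov hcov.smooth (C a) (C b) (ef e z ξ))
  have hT : ∀ c : Eu E, pb e z ξ n c = gVF (nabVF cov hcov.smooth (C a) (C b)) (C c) (ef e z ξ) :=
    fun c => (gVF_coord hn.symm (hCξ c)).symm
  have hcomm : ∀ a b c : Eu E, gVF (nabVF cov hcov.smooth (C a) (C b)) (C c) (ef e z ξ) =
      gVF (nabVF cov hcov.smooth (C b) (C a)) (C c) (ef e z ξ) := by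
    intro a b c
    rw [gVF_apply, gVF_apply, field_comm hcov he z hC a b]
  have hkey : n = P255.chris (pb e z) ξ a b := by
    apply hG.ext_of hξ
    intro c
    rw [hG.chris_spec hξ, hT, hD, hD, hD, hcomm b a c, hcomm c a b, hcomm c b a]
    ring
  rw [← hn, hkey]

/-- the coordinate property at nearby points -/
theorem IsCoord.eventually {z : M} {C : Eu E → VF E M} {ξ : Eu E} (hC : IsCoord e z C ξ) :
    ∀ᶠ η in 𝓝 ξ, IsCoord e z C η := eventually_eventually_nhds.2 hC

/-- (B1), the curvature tensor in the exponential chart -/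
theorem curv_coord (hcov : IsLC cov) (F : Facts e) {z : M} {C : Eu E → VF E M} {ξ : Eu E}
    (hξ : ξ ∈ dom e z) (hC : IsCoord e z C ξ) (x y v w : Eu E) :
    ((lcOf hcov).Rm (C x) (C y) (C v) (C w) : SF E M) (ef e z ξ) =
      pb e z ξ (P255.curv (pb e z) ξ x y v) w := by
  have he := F.isExp
  have hG := isMetricOn F z
  have hCξ := hC.self_of_nhds
  -- second covariant derivatives
  have key : ∀ x y v w : Eu E,
      gVF (nabVF cov hcov.smooth (C x) (nabVF cov hcov.smooth (C y) (C v))) (C w) (ef e z ξ) =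
      pb e z ξ (fderiv ℝ (fun p => P255.chris (pb e z) p y v) ξ x) w +
      pb e z ξ (P255.chris (pb e z) ξ x (P255.chris (pb e z) ξ y v)) w := by
    intro x y v w
    have h1 : DVF (C x) (gVF (nabVF cov hcov.smooth (C y) (C v)) (C w)) (ef e z ξ) =
        fderiv ℝ (fun η : Eu E => gVF (nabVF cov hcov.smooth (C y) (C v)) (C w) (ef e z η)) ξ x :=
      field_deriv he z (C x) _ (hCξ x)
    have h2 : (fun η : Eu E => gVF (nabVF cov hcov.smooth (C y) (C v)) (C w) (ef e z η)) =ᶠ[𝓝 ξ]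
        fun η => pb e z η (P255.chris (pb e z) η y v) w := by
      filter_upwards [hC, hC.eventually, hG.isOpen.mem_nhds hξ] with η hη hη' hηd
      exact gVF_coord (nab_coord hcov F hηd hη' y v) (hη w)
    rw [h2.fderiv_eq] at h1
    have hch : DifferentiableAt ℝ (fun p => P255.chris (pb e z) p y v) ξ :=
      (hG.contDiffAt_chris hξ y v).differentiableAt (by simp)
    have h3 := ((hG.differentiableAt hξ).hasFDerivAt.clm_apply hch.hasFDerivAt).clm_apply
        (hasFDerivAt_const w ξ)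
    rw [h3.fderiv] at h1
    have h5 : DVF (C x) (gVF (nabVF cov hcov.smooth (C y) (C v)) (C w)) (ef e z ξ) =
        gVF (nabVF cov hcov.smooth (C x) (nabVF cov hcov.smooth (C y) (C v))) (C w) (ef e z ξ) +
        gVF (nabVF cov hcov.smooth (C y) (C v)) (nabVF cov hcov.smooth (C x) (C w)) (ef e z ξ) :=
      hcov.metric (C x) (nabVF cov hcov.smooth (C y) (C v)) (C w) (ef e z ξ)
    have h6 : gVF (nabVF cov hcov.smooth (C y) (C v)) (nabVF cov hcov.smooth (C x) (C w))
        (ef e z ξ) = pb e z ξ (P255.chris (pb e z) ξ y v) (P255.chris (pb e z) ξ x w) :=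
      gVF_coord (nab_coord hcov F hξ hC y v) (nab_coord hcov F hξ hC x w)
    rw [h1, h6] at h5
    have h7 := hG.chris_compat hξ x (P255.chris (pb e z) ξ y v) w
    simp only [add_apply, ContinuousLinearMap.flip_apply, ContinuousLinearMap.comp_apply,
      zero_apply, map_zero, zero_add] at h5
    linarith
  have hb : ∀ X : VF E M, X (ef e z ξ) = 0 → ∀ Y Z : VF E M,
      gVF (nabVF cov hcov.smooth X Y) Z (ef e z ξ) = 0 := by
    intro X hX Y Z
    rw [gVF_apply, nabVF_apply, hX, map_zero, inner_zero_left]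
  have hbr : (nabVF cov hcov.smooth (C x) (C y) - nabVF cov hcov.smooth (C y) (C x) : VF E M)
      (ef e z ξ) = 0 := by
    rw [ContMDiffSection.coe_sub, Pi.sub_apply, field_comm hcov he z hC x y, sub_self]
  have h0 := hb _ hbr (C v) (C w)
  have h1 : ((lcOf hcov).Rm (C x) (C y) (C v) (C w) : SF E M) (ef e z ξ) =
      gVF (nabVF cov hcov.smooth (C x) (nabVF cov hcov.smooth (C y) (C v))) (C w) (ef e z ξ) -
      gVF (nabVF cov hcov.smooth (C y) (nabVF cov hcov.smooth (C x) (C v))) (C w) (ef e z ξ) -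
      gVF (nabVF cov hcov.smooth (nabVF cov hcov.smooth (C x) (C y) -
        nabVF cov hcov.smooth (C y) (C x)) (C v)) (C w) (ef e z ξ) := by
    have h2 : (lcOf hcov).Rm (C x) (C y) (C v) (C w) =
        gVF (nabVF cov hcov.smooth (C x) (nabVF cov hcov.smooth (C y) (C v))) (C w) -
        gVF (nabVF cov hcov.smooth (C y) (nabVF cov hcov.smooth (C x) (C v))) (C w) -
        gVF (nabVF cov hcov.smooth (nabVF cov hcov.smooth (C x) (C y) -
          nabVF cov hcov.smooth (C y) (C x)) (C v)) (C w) := by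
      unfold LC.Rm LC.R
      rw [(lcOf hcov).g_sub_left, (lcOf hcov).g_sub_left]
      rfl
    rw [h2]
    rfl
  rw [h1, h0, key x y v w, key y x v w]
  unfold P255.curv
  simp only [map_sub, map_add, sub_apply, add_apply]
  ring

section geo

variable [PreconnectedSpace M]

theorem on_coord (hcov : IsLC cov) (hE : Module.finrank ℝ E = 4) {z : M} {C : Eu E → VF E M}
    {ξ : Eu E} (hC : IsCoord e z C ξ) {β : Fin 4 → Eu E}
    (hβ : ∀ i j, pb e z ξ (β i) (β j) = if i = j then 1 else 0) :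
    (S4.geo2Of hcov hE).ON (ef e z ξ) (fun i => C (β i)) := by
  intro i j
  have hCξ := hC.self_of_nhds
  have h1 : gVF (C (β i)) (C (β j)) (ef e z ξ) = pb e z ξ (β i) (β j) :=
    gVF_coord (hCξ _) (hCξ _)
  rw [hβ] at h1
  exact h1

/-- (B1) the Einstein condition in the exponential chart -/
theorem einstein_coord (hcov : IsLC cov) (hE : Module.finrank ℝ E = 4) (F : Facts e) {lam : ℝ}
    (hEin : (S4.geo2Of hcov hE).Einstein lam) {z : M} {ξ : Eu E} (hξ : ξ ∈ dom e z) (w : Eu E)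
    {β : Fin 4 → Eu E} (hβ : ∀ i j, pb e z ξ (β i) (β j) = if i = j then 1 else 0) :
    ∑ i, pb e z ξ (P255.curv (pb e z) ξ (β i) w w) (β i) = lam * pb e z ξ w w := by
  obtain ⟨C, hC⟩ := exists_coord F hξ
  have hCξ := hC.self_of_nhds
  have h1 := hEin (ef e z ξ) _ (on_coord hcov hE hC hβ) (C w) (C w)
  have h2 : ∀ i, (S4.geo2Of hcov hE).ev (ef e z ξ)
      ((S4.geo2Of hcov hE).Rm (C (β i)) (C w) (C w) (C (β i))) =
      pb e z ξ (P255.curv (pb e z) ξ (β i) w w) (β i) := fun i =>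
    curv_coord hcov F hξ hC (β i) w w (β i)
  have h3 : (S4.geo2Of hcov hE).ev (ef e z ξ) ((S4.geo2Of hcov hE).g (C w) (C w)) =
      pb e z ξ w w := gVF_coord (hCξ w) (hCξ w)
  rw [h3] at h1
  rw [← h1]
  exact Finset.sum_congr rfl fun i _ => (h2 i).symm

/-- (B2) the Laplacian in the exponential chart -/
theorem lap_coord (hcov : IsLC cov) (hE : Module.finrank ℝ E = 4) (F : Facts e)
    {z : M} {ξ : Eu E} (hξ : ξ ∈ dom e z) (f : SF E M)
    {β : Fin 4 → Eu E} (hβ : ∀ i j, pb e z ξ (β i) (β j) = if i = j then 1 else 0) :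
    ∑ i, (fderiv ℝ (fderiv ℝ (fun η : Eu E => f (ef e z η))) ξ (β i) (β i) -
      fderiv ℝ (fun η : Eu E => f (ef e z η)) ξ (P255.chris (pb e z) ξ (β i) (β i))) =
      (S4.geo2Of hcov hE).ev (ef e z ξ) ((S4.geo2Of hcov hE).lap f) := by
  have he := F.isExp
  obtain ⟨C, hC⟩ := exists_coord F hξ
  have h1 := (S4.geo2Of hcov hE).dv_spec ((S4.geo2Of hcov hE).grad f) (ef e z ξ) _
    (on_coord hcov hE hC hβ)
  have h2 : (S4.geo2Of hcov hE).ev (ef e z ξ) ((S4.geo2Of hcov hE).lap f) = _ := h1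
  rw [h2]
  refine Finset.sum_congr rfl fun i _ => ?_
  have h3 : (S4.geo2Of hcov hE).D (C (β i)) ((S4.geo2Of hcov hE).g ((S4.geo2Of hcov hE).grad f)
      (C (β i))) = (S4.geo2Of hcov hE).g ((S4.geo2Of hcov hE).nab (C (β i))
        ((S4.geo2Of hcov hE).grad f)) (C (β i)) +
      (S4.geo2Of hcov hE).g ((S4.geo2Of hcov hE).grad f)
        ((S4.geo2Of hcov hE).nab (C (β i)) (C (β i))) :=
    (S4.geo2Of hcov hE).metric _ _ _
  rw [(S4.geo2Of hcov hE).grad_spec, (S4.geo2Of hcov hE).grad_spec] at h3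
  have h4 := congrArg (fun h : SF E M => h (ef e z ξ)) h3
  have h5 : DVF (C (β i)) (DVF (C (β i)) f) (ef e z ξ) =
      (S4.geo2Of hcov hE).ev (ef e z ξ) ((S4.geo2Of hcov hE).g ((S4.geo2Of hcov hE).nab (C (β i))
        ((S4.geo2Of hcov hE).grad f)) (C (β i))) +
      DVF (nabVF cov hcov.smooth (C (β i)) (C (β i))) f (ef e z ξ) := h4
  rw [field_deriv2 he z hC, field_deriv he z _ f (nab_coord hcov F hξ hC (β i) (β i))] at h5
  linarith

/-- (B2) derivatives along vector fields -/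
theorem D_coord (hcov : IsLC cov) (hE : Module.finrank ℝ E = 4) (F : Facts e)
    (z : M) (X : VF E M) (f : SF E M) {ξ a : Eu E}
    (hX : (X (ef e z ξ) : E) = dE e z (fr z ξ) (fr z a)) :
    (S4.geo2Of hcov hE).ev (ef e z ξ) ((S4.geo2Of hcov hE).D X f) =
      fderiv ℝ (fun η : Eu E => f (ef e z η)) ξ a :=
  field_deriv F.isExp z X f hX

end geo

end

end Vale.Agent.P211.H775
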